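import Mathlib

open scoped InnerProductSpace ComplexConjugate

namespace Vale.Agent.P123

variable {H : Type*} [NormedAddCommGroup H] [InnerProductSpace ℂ H] [CompleteSpace H]

lemma int_inner (G : ℝ → H →L[ℂ] H) (hG : Continuous G) (a b : ℝ) (u v : H) :
    ∫ θ in a..b, ⟪u, G θ v⟫_ℂ = ⟪u, (∫ θ in a..b, G θ) v⟫_ℂ := by
  have := ((innerSL ℂ u).comp (ContinuousLinearMap.apply ℂ H v)).intervalIntegral_comp_comm
    (hG.intervalIntegrable (μ := MeasureTheory.volume) a b)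
  simpa using this

lemma seq_lower (m : ℕ → ℝ) (κ c B : ℝ) (hκ : 1 < κ) (hB : ∀ n, |m n| ≤ B)
    (hrec : ∀ n, m (n + 1) - c ≤ κ * m n) : -(c / (κ - 1)) ≤ m 1 := by
  set c' := c / (κ - 1) with hc'
  have hk1 : 0 < κ - 1 := by linarith
  have hcc : c = c' * (κ - 1) := by rw [hc']; field_simp
  have h1 : ∀ n : ℕ, m (n + 1) + c' ≤ κ ^ n * (m 1 + c') := by
    intro n
    induction n with
    | zero => simp
    | succ n ih =>
      have := hrec (n + 1)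
      have h2 : m (n + 1 + 1) + c' ≤ κ * (m (n + 1) + c') := by rw [hcc] at this; linarith
      calc m (n + 1 + 1) + c' ≤ κ * (m (n + 1) + c') := h2
        _ ≤ κ * (κ ^ n * (m 1 + c')) := by
            apply mul_le_mul_of_nonneg_left ih; linarith
        _ = κ ^ (n + 1) * (m 1 + c') := by ring
  by_contra hneg
  push Not at hneg
  have hneg' : 0 < -(m 1 + c') := by linarith
  obtain ⟨n, hn⟩ := pow_unbounded_of_one_lt ((B + |c'| + 1) / (-(m 1 + c'))) hκ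
  rw [div_lt_iff₀ hneg'] at hn
  have h3 := h1 n
  have h4 := (abs_le.mp (hB (n + 1))).1
  have h5 := neg_abs_le c'
  nlinarith

theorem abstract_bound (T : H →L[ℂ] H) (R : ℝ → H →L[ℂ] H) (f : ℝ → ℂ) (a b : ℝ) (hab : a ≤ b)
    (hR : Continuous R) (hf : Continuous f) (hf1 : ∀ θ, ‖f θ‖ ≤ 1)
    (hcomm : ∀ θ, R θ * T = T * R θ) (hpos : ∀ θ x, 0 ≤ (⟪x, R θ x⟫_ℂ).re)
    (hint : ∀ n : ℕ, ∫ θ in a..b, (f θ) ^ n • R θ = T ^ n) : ‖T‖ ≤ 2 := by
  by_contra hT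
  push Not at hT
  set κ := ‖T‖ with hκ
  have hκ0 : 0 < κ := by linarith
  set C := ∫ θ in a..b, ‖R θ‖ with hC
  have hC0 : 0 ≤ C := intervalIntegral.integral_nonneg hab (fun θ _ => norm_nonneg _)
  have hcont : ∀ u v : H, Continuous fun θ => ⟪u, R θ v⟫_ℂ := fun u v => by fun_prop
  -- basic integrals
  have hs : ∀ (n : ℕ) (u v : H), ∫ θ in a..b, (f θ) ^ n * ⟪u, R θ v⟫_ℂ = ⟪u, (T ^ n) v⟫_ℂ := by
    intro n u v
    rw [← hint n, ← int_inner _ (by fun_prop)]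
    simp
  have hbound : ∀ (g : ℝ → ℂ), Continuous g → (∀ θ, ‖g θ‖ ≤ 1) → ∀ u v : H,
      ‖∫ θ in a..b, g θ * ⟪u, R θ v⟫_ℂ‖ ≤ C * (‖u‖ * ‖v‖) := by
    intro g hg hg1 u v
    rw [hC, ← intervalIntegral.integral_mul_const]
    refine intervalIntegral.norm_integral_le_of_norm_le hab ?_ ?_
    · refine Filter.Eventually.of_forall fun θ _ => ?_
      rw [norm_mul]
      calc ‖g θ‖ * ‖⟪u, R θ v⟫_ℂ‖ ≤ 1 * (‖u‖ * (‖R θ‖ * ‖v‖)) := by
            apply mul_le_mul (hg1 θ) _ (norm_nonneg _) zero_le_one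
            exact (norm_inner_le_norm _ _).trans
              (mul_le_mul_of_nonneg_left ((R θ).le_opNorm v) (norm_nonneg _))
        _ = ‖R θ‖ * (‖u‖ * ‖v‖) := by ring
    · exact (Continuous.intervalIntegrable (by fun_prop) _ _)
  have hpow1 : ∀ (n : ℕ) θ, ‖(f θ) ^ n‖ ≤ 1 := fun n θ => by
    rw [norm_pow]; exact pow_le_one₀ (norm_nonneg _) (hf1 θ)
  have hpow2 : ∀ (n : ℕ) θ, ‖(conj (f θ)) ^ n‖ ≤ 1 := fun n θ => by
    rw [norm_pow, Complex.norm_conj]; exact pow_le_one₀ (norm_nonneg _) (hf1 θ)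
  have hTn : ∀ (n : ℕ) (v : H), ‖(T ^ n) v‖ ≤ C * ‖v‖ := by
    intro n v
    have h1 := hbound (fun θ => (f θ) ^ n) (by fun_prop) (hpow1 n) ((T ^ n) v) v
    rw [hs, inner_self_eq_norm_sq_to_K] at h1
    have h2 : ‖(T ^ n) v‖ ^ 2 ≤ C * (‖(T ^ n) v‖ * ‖v‖) := by
      simpa [norm_pow] using h1
    by_cases h0 : ‖(T ^ n) v‖ = 0
    · rw [h0]; positivity
    · have : 0 < ‖(T ^ n) v‖ := lt_of_le_of_ne (norm_nonneg _) (Ne.symm h0)
      nlinarith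
  set e : ℕ → H → H → ℂ := fun n u v => ∫ θ in a..b, (conj (f θ)) ^ n * ⟪u, R θ v⟫_ℂ with he
  have hebound : ∀ n u v, ‖e n u v‖ ≤ C * (‖u‖ * ‖v‖) := fun n u v =>
    hbound _ (by fun_prop) (hpow2 n) u v
  set lam : ℝ := 1 - κ⁻¹ with hlam
  have hlam0 : 0 < lam := by
    have : κ⁻¹ < 1 := inv_lt_one_of_one_lt₀ (by linarith)
    linarith
  -- main inequality for an arbitrary unit vector
  have key : ∀ x : H, ‖x‖ = 1 →
      ‖T x‖ ^ 2 * lam ≤ κ + (C * C * ‖(ContinuousLinearMap.adjoint T) (T x) - (κ ^ 2 : ℂ) • x‖)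
        / (κ * (κ - 1)) := by
    intro x hx
    set δ := (ContinuousLinearMap.adjoint T) (T x) - (κ ^ 2 : ℂ) • x with hδ
    set bb : ℝ → H := fun θ => ((κ⁻¹ : ℝ) : ℂ) • T x - f θ • x with hbb
    set d : ℝ := (∫ θ in a..b, ⟪bb θ, R θ (bb θ)⟫_ℂ).re with hd
    have hbbc : Continuous bb := by rw [hbb]; fun_prop
    have hd0 : 0 ≤ d := by
      have := intervalIntegral.intervalIntegral_re (𝕜 := ℂ) (μ := MeasureTheory.volume)
        (f := fun θ => ⟪bb θ, R θ (bb θ)⟫_ℂ) (a := a) (b := b)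
        (Continuous.intervalIntegrable (by fun_prop) _ _)
      rw [hd, ← RCLike.re_to_complex, ← this]
      exact intervalIntegral.integral_nonneg hab (fun θ _ => hpos θ _)
    set m : ℕ → ℝ := fun n => (e n x ((T ^ n) x)).re with hm
    have hmB : ∀ n, |m n| ≤ C * C := by
      intro n
      refine (Complex.abs_re_le_norm _).trans ((hebound n _ _).trans ?_)
      have := hTn n x
      rw [hx] at this ⊢
      nlinarith
    have nonneg_int : ∀ Z : ℝ → ℂ, Continuous Z → (∀ θ, 0 ≤ (Z θ).re) →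
        0 ≤ (∫ θ in a..b, Z θ).re := by
      intro Z hZ hZ0
      have := intervalIntegral.intervalIntegral_re (𝕜 := ℂ) (μ := MeasureTheory.volume)
        (f := Z) (a := a) (b := b) (hZ.intervalIntegrable _ _)
      rw [← RCLike.re_to_complex, ← this]
      exact intervalIntegral.integral_nonneg hab (fun θ _ => hZ0 θ)
    have hii : ∀ Z : ℝ → ℂ, Continuous Z → IntervalIntegrable Z MeasureTheory.volume a b :=
      fun Z hZ => hZ.intervalIntegrable _ _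
    have hrec : ∀ n : ℕ, m (n + 1) - (d / lam + C * C * ‖δ‖ / κ) ≤ κ * m n := by
      intro n
      set u := (T ^ (n + 1)) x with hu
      have hu' : u = T ((T ^ n) x) := by rw [hu, pow_succ']; rfl
      have hu'' : u = (T ^ n) (T x) := by rw [hu, pow_succ]; rfl
      have h1 := nonneg_int (fun θ => (lam : ℂ) ^ 2 * ((f θ) ^ 0 * ⟪u, R θ u⟫_ℂ)
          + (lam * κ⁻¹ : ℂ) * ((f θ) ^ n * ⟪u, R θ (T x)⟫_ℂ)
          - (lam : ℂ) * ((f θ) ^ (n + 1) * ⟪u, R θ x⟫_ℂ)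
          + (lam * κ⁻¹ : ℂ) * ((conj (f θ)) ^ n * ⟪T x, R θ u⟫_ℂ)
          - (lam : ℂ) * ((conj (f θ)) ^ (n + 1) * ⟪x, R θ u⟫_ℂ)
          + ⟪bb θ, R θ (bb θ)⟫_ℂ) (by fun_prop) (by
        intro θ
        have h2 := hpos θ (((lam : ℂ) * (conj (f θ)) ^ n) • u + bb θ)
        have h3 := hpos θ u
        have h4 : ‖(f θ) ^ n‖ ^ 2 ≤ 1 := pow_le_one₀ (norm_nonneg _) (hpow1 n θ)
        have h5 : (conj (f θ)) ^ n * (f θ) ^ n = ((‖(f θ) ^ n‖ ^ 2 : ℝ) : ℂ) := by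
          rw [← map_pow, Complex.conj_mul']; push_cast; ring
        have h6 : ⟪((lam : ℂ) * (conj (f θ)) ^ n) • u + bb θ,
            R θ (((lam : ℂ) * (conj (f θ)) ^ n) • u + bb θ)⟫_ℂ =
            ((lam ^ 2 * ‖(f θ) ^ n‖ ^ 2 : ℝ) : ℂ) * ⟪u, R θ u⟫_ℂ
            + ((lam * κ⁻¹ : ℂ) * ((f θ) ^ n * ⟪u, R θ (T x)⟫_ℂ)
            - (lam : ℂ) * ((f θ) ^ (n + 1) * ⟪u, R θ x⟫_ℂ)
            + (lam * κ⁻¹ : ℂ) * ((conj (f θ)) ^ n * ⟪T x, R θ u⟫_ℂ)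
            - (lam : ℂ) * ((conj (f θ)) ^ (n + 1) * ⟪x, R θ u⟫_ℂ)
            + ⟪bb θ, R θ (bb θ)⟫_ℂ) := by
          have e1 : ⟪u, R θ (bb θ)⟫_ℂ = (κ⁻¹ : ℂ) * ⟪u, R θ (T x)⟫_ℂ - f θ * ⟪u, R θ x⟫_ℂ := by
            simp [hbb]
          have e2 : ⟪bb θ, R θ u⟫_ℂ
              = (κ⁻¹ : ℂ) * ⟪T x, R θ u⟫_ℂ - conj (f θ) * ⟪x, R θ u⟫_ℂ := by
            simp [hbb]; ring
          rw [map_add, map_smul, inner_add_left, inner_add_right, inner_add_right,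
            inner_smul_left, inner_smul_left, inner_smul_right, inner_smul_right, e1, e2]
          push_cast at h5 ⊢
          simp only [map_mul, map_pow, Complex.conj_conj, Complex.conj_ofReal]
          linear_combination (lam : ℂ) ^ 2 * ⟪u, R θ u⟫_ℂ * h5
        rw [h6, Complex.add_re, Complex.re_ofReal_mul] at h2
        have h7 : (lam : ℂ) ^ 2 * ((f θ) ^ 0 * ⟪u, R θ u⟫_ℂ)
          + (lam * κ⁻¹ : ℂ) * ((f θ) ^ n * ⟪u, R θ (T x)⟫_ℂ)
          - (lam : ℂ) * ((f θ) ^ (n + 1) * ⟪u, R θ x⟫_ℂ)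
          + (lam * κ⁻¹ : ℂ) * ((conj (f θ)) ^ n * ⟪T x, R θ u⟫_ℂ)
          - (lam : ℂ) * ((conj (f θ)) ^ (n + 1) * ⟪x, R θ u⟫_ℂ)
          + ⟪bb θ, R θ (bb θ)⟫_ℂ = ((lam ^ 2 : ℝ) : ℂ) * ⟪u, R θ u⟫_ℂ
            + ((lam * κ⁻¹ : ℂ) * ((f θ) ^ n * ⟪u, R θ (T x)⟫_ℂ)
            - (lam : ℂ) * ((f θ) ^ (n + 1) * ⟪u, R θ x⟫_ℂ)
            + (lam * κ⁻¹ : ℂ) * ((conj (f θ)) ^ n * ⟪T x, R θ u⟫_ℂ)
            - (lam : ℂ) * ((conj (f θ)) ^ (n + 1) * ⟪x, R θ u⟫_ℂ)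
            + ⟪bb θ, R θ (bb θ)⟫_ℂ) := by push_cast; ring
        rw [h7, Complex.add_re, Complex.re_ofReal_mul]
        have h8 : lam ^ 2 * ‖(f θ) ^ n‖ ^ 2 * (⟪u, R θ u⟫_ℂ).re
            ≤ lam ^ 2 * (⟪u, R θ u⟫_ℂ).re := by
          apply mul_le_mul_of_nonneg_right _ h3
          nlinarith [sq_nonneg lam]
        linarith)
      rw [intervalIntegral.integral_add (hii _ (by fun_prop)) (hii _ (by fun_prop)),
        intervalIntegral.integral_sub (hii _ (by fun_prop)) (hii _ (by fun_prop)),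
        intervalIntegral.integral_add (hii _ (by fun_prop)) (hii _ (by fun_prop)),
        intervalIntegral.integral_sub (hii _ (by fun_prop)) (hii _ (by fun_prop)),
        intervalIntegral.integral_add (hii _ (by fun_prop)) (hii _ (by fun_prop))] at h1
      simp only [intervalIntegral.integral_const_mul, hs] at h1
      rw [← hu, ← hu''] at h1
      have h9 : (∫ θ in a..b, (conj (f θ)) ^ n * ⟪T x, R θ u⟫_ℂ)
          = (κ ^ 2 : ℂ) * e n x ((T ^ n) x) + e n δ ((T ^ n) x) := by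
        simp only [he]
        rw [← intervalIntegral.integral_const_mul,
          ← intervalIntegral.integral_add (hii _ (by fun_prop)) (hii _ (by fun_prop))]
        congr 1
        ext θ
        have : R θ u = T (R θ ((T ^ n) x)) := by
          rw [hu']
          exact congrArg (fun S : H →L[ℂ] H => S ((T ^ n) x)) (hcomm θ)
        rw [this, ← ContinuousLinearMap.adjoint_inner_left, hδ, inner_sub_left, inner_smul_left]
        simp only [map_pow, Complex.conj_ofReal]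
        ring
      have h10 : (∫ θ in a..b, (conj (f θ)) ^ (n + 1) * ⟪x, R θ u⟫_ℂ) = e (n + 1) x u := rfl
      rw [h9, h10, pow_zero, one_apply_eq_self, inner_self_eq_norm_sq_to_K] at h1
      have h11 : |(e n δ ((T ^ n) x)).re| ≤ C * C * ‖δ‖ := by
        refine (Complex.abs_re_le_norm _).trans ((hebound n _ _).trans ?_)
        have := hTn n x
        rw [hx] at this
        have h12 := norm_nonneg δ
        have : ‖δ‖ * ‖(T ^ n) x‖ ≤ ‖δ‖ * C := mul_le_mul_of_nonneg_left (by simpa using this) h12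
        nlinarith
      have h13 : ((lam : ℂ) ^ 2 * ((‖u‖ : ℂ) ^ 2) + (lam * κ⁻¹ : ℂ) * ((‖u‖ : ℂ) ^ 2)
          - (lam : ℂ) * ((‖u‖ : ℂ) ^ 2)
          + (lam * κ⁻¹ : ℂ) * ((κ ^ 2 : ℂ) * e n x ((T ^ n) x) + e n δ ((T ^ n) x))
          - (lam : ℂ) * e (n + 1) x u + ∫ θ in a..b, ⟪bb θ, R θ (bb θ)⟫_ℂ)
          = ((lam * κ : ℝ) : ℂ) * e n x ((T ^ n) x) + ((lam * κ⁻¹ : ℝ) : ℂ) * e n δ ((T ^ n) x)
            - (lam : ℂ) * e (n + 1) x u + ∫ θ in a..b, ⟪bb θ, R θ (bb θ)⟫_ℂ := by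
        have hκc : (κ : ℂ) ≠ 0 := by exact_mod_cast hκ0.ne'
        rw [hlam]; push_cast; field_simp; ring
      have h14 : 0 ≤ lam * κ * m n + lam * κ⁻¹ * (e n δ ((T ^ n) x)).re - lam * m (n + 1) + d := by
        have h15 := h1
        erw [h13] at h15
        simpa [Complex.add_re, Complex.sub_re, Complex.re_ofReal_mul, hm, hd, hu] using h15
      have h16 := (abs_le.mp h11).2
      have h17 : κ⁻¹ * (e n δ ((T ^ n) x)).re ≤ C * C * ‖δ‖ / κ := by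
        rw [div_eq_inv_mul]; exact mul_le_mul_of_nonneg_left h16 (by positivity)
      have h18 : d / lam * lam = d := by field_simp
      have : lam * (m (n + 1) - (d / lam + C * C * ‖δ‖ / κ)) ≤ lam * (κ * m n) := by
        nlinarith
      exact le_of_mul_le_mul_left this hlam0
    have hlow := seq_lower m κ _ _ (by linarith) hmB hrec
    -- upper bound for d
    have hdup : d ≤ ‖T x‖ ^ 2 * κ⁻¹ ^ 2 - ‖T x‖ ^ 2 * κ⁻¹ - m 1 * κ⁻¹ + 1 := by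
      have h1 := nonneg_int (fun θ => (κ⁻¹ : ℂ) ^ 2 * ((f θ) ^ 0 * ⟪T x, R θ (T x)⟫_ℂ)
          - (κ⁻¹ : ℂ) * ((f θ) ^ 1 * ⟪T x, R θ x⟫_ℂ)
          - (κ⁻¹ : ℂ) * ((conj (f θ)) ^ 1 * ⟪x, R θ (T x)⟫_ℂ)
          + ((f θ) ^ 0 * ⟪x, R θ x⟫_ℂ)
          - ⟪bb θ, R θ (bb θ)⟫_ℂ) (by fun_prop) (by
        intro θ
        have h3 := hpos θ x
        have h4 : ‖f θ‖ ^ 2 ≤ 1 := pow_le_one₀ (norm_nonneg _) (hf1 θ)
        have h5 : (conj (f θ)) * (f θ) = ((‖f θ‖ ^ 2 : ℝ) : ℂ) := by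
          rw [Complex.conj_mul']; push_cast; ring
        have h6 : (κ⁻¹ : ℂ) ^ 2 * ((f θ) ^ 0 * ⟪T x, R θ (T x)⟫_ℂ)
          - (κ⁻¹ : ℂ) * ((f θ) ^ 1 * ⟪T x, R θ x⟫_ℂ)
          - (κ⁻¹ : ℂ) * ((conj (f θ)) ^ 1 * ⟪x, R θ (T x)⟫_ℂ)
          + ((f θ) ^ 0 * ⟪x, R θ x⟫_ℂ)
          - ⟪bb θ, R θ (bb θ)⟫_ℂ = ((1 - ‖f θ‖ ^ 2 : ℝ) : ℂ) * ⟪x, R θ x⟫_ℂ := by
          simp only [hbb, map_sub, map_smul, inner_sub_left, inner_sub_right, inner_smul_left,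
            inner_smul_right, Complex.conj_ofReal]
          push_cast at h5 ⊢
          linear_combination (-⟪x, R θ x⟫_ℂ) * h5
        rw [h6, Complex.re_ofReal_mul]
        exact mul_nonneg (by linarith) h3)
      rw [intervalIntegral.integral_sub (hii _ (by fun_prop)) (hii _ (by fun_prop)),
        intervalIntegral.integral_add (hii _ (by fun_prop)) (hii _ (by fun_prop)),
        intervalIntegral.integral_sub (hii _ (by fun_prop)) (hii _ (by fun_prop)),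
        intervalIntegral.integral_sub (hii _ (by fun_prop)) (hii _ (by fun_prop))] at h1
      simp only [intervalIntegral.integral_const_mul, hs] at h1
      have h10 : (∫ θ in a..b, (conj (f θ)) ^ 1 * ⟪x, R θ (T x)⟫_ℂ) = e 1 x ((T ^ 1) x) := by
        simp [he]
      rw [h10] at h1
      simp only [pow_zero, one_apply_eq_self, pow_one T,
        inner_self_eq_norm_sq_to_K, hx] at h1
      have h11 : (κ⁻¹ : ℂ) ^ 2 * ((‖T x‖ : ℂ) ^ 2) - (κ⁻¹ : ℂ) * ((‖T x‖ : ℂ) ^ 2)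
          - (κ⁻¹ : ℂ) * e 1 x (T x) + ((1 : ℝ) : ℂ) ^ 2 - ∫ θ in a..b, ⟪bb θ, R θ (bb θ)⟫_ℂ
          = ((‖T x‖ ^ 2 * κ⁻¹ ^ 2 - ‖T x‖ ^ 2 * κ⁻¹ + 1 : ℝ) : ℂ)
            - ((κ⁻¹ : ℝ) : ℂ) * e 1 x (T x) - ∫ θ in a..b, ⟪bb θ, R θ (bb θ)⟫_ℂ := by
        push_cast; ring
      erw [h11] at h1
      rw [Complex.sub_re, Complex.sub_re, Complex.re_ofReal_mul, Complex.ofReal_re] at h1
      have h12 : m 1 = (e 1 x (T x)).re := by simp [hm]
      rw [h12]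
      linarith
    have hk1 : 0 < κ - 1 := by linarith
    have e1 : (d / lam + C * C * ‖δ‖ / κ) / (κ - 1)
        = d * κ / (κ - 1) ^ 2 + C * C * ‖δ‖ / (κ * (κ - 1)) := by
      rw [hlam]; field_simp
    have e2 : d * κ / (κ - 1) ^ 2 ≤ d * κ := by
      apply div_le_self (by positivity)
      nlinarith
    have e3 : d * κ ≤ ‖T x‖ ^ 2 * κ⁻¹ - ‖T x‖ ^ 2 - m 1 + κ := by
      have := mul_le_mul_of_nonneg_right hdup hκ0.le
      have e4 : (‖T x‖ ^ 2 * κ⁻¹ ^ 2 - ‖T x‖ ^ 2 * κ⁻¹ - m 1 * κ⁻¹ + 1) * κ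
          = ‖T x‖ ^ 2 * κ⁻¹ - ‖T x‖ ^ 2 - m 1 + κ := by field_simp
      linarith
    rw [e1] at hlow
    rw [hlam]
    linarith
  -- approximate maximizers
  have happrox : ∀ x : H, ‖x‖ = 1 →
      ‖(ContinuousLinearMap.adjoint T) (T x) - (κ ^ 2 : ℂ) • x‖ ^ 2
        ≤ κ ^ 2 * (κ ^ 2 - ‖T x‖ ^ 2) := by
    intro x hx
    have h1 : ‖(ContinuousLinearMap.adjoint T) (T x)‖ ≤ κ * ‖T x‖ := by
      have := (ContinuousLinearMap.adjoint T).le_opNorm (T x)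
      rwa [LinearIsometryEquiv.norm_map] at this
    rw [@norm_sub_sq ℂ, inner_smul_right, ContinuousLinearMap.adjoint_inner_left,
      inner_self_eq_norm_sq_to_K, norm_smul, hx]
    have h2 : RCLike.re ((κ ^ 2 : ℂ) * ((‖T x‖ : ℝ) : ℂ) ^ 2) = κ ^ 2 * ‖T x‖ ^ 2 := by
      have : ((κ ^ 2 : ℂ) * ((‖T x‖ : ℝ) : ℂ) ^ 2) = ((κ ^ 2 * ‖T x‖ ^ 2 : ℝ) : ℂ) := by
        push_cast; ring
      rw [this]; exact Complex.ofReal_re _
    have h3 : ‖(κ ^ 2 : ℂ)‖ = κ ^ 2 := by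
      rw [norm_pow, Complex.norm_real, Real.norm_of_nonneg hκ0.le]
    erw [h2]
    rw [h3]
    have h4 : ‖(ContinuousLinearMap.adjoint T) (T x)‖ ^ 2 ≤ (κ * ‖T x‖) ^ 2 :=
      pow_le_pow_left₀ (norm_nonneg _) h1 2
    nlinarith
  -- continuity argument
  have hk1 : 0 < κ - 1 := by linarith
  set F : ℝ → ℝ := fun t => κ + (C * C * Real.sqrt (κ ^ 2 * (κ ^ 2 - t ^ 2))) / (κ * (κ - 1))
    - t ^ 2 * lam with hF
  have hFc : Continuous F := by rw [hF]; fun_prop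
  have hFκ : F κ < 0 := by
    simp only [hF, sub_self, mul_zero, Real.sqrt_zero, zero_div, add_zero, hlam]
    have : κ ^ 2 * (1 - κ⁻¹) = κ * (κ - 1) := by field_simp
    rw [this]; nlinarith
  obtain ⟨ε, hε, hεF⟩ := Metric.continuousAt_iff.mp hFc.continuousAt (-F κ) (by linarith)
  obtain ⟨x, hx1, hx2⟩ := T.exists_lt_apply_of_lt_opNorm (r := max (κ - ε) 0)
    (max_lt (by linarith) hκ0)
  have hx0 : x ≠ 0 := by
    rintro rfl
    simp at hx2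
  have hxn : 0 < ‖x‖ := norm_pos_iff.mpr hx0
  set y : H := ((‖x‖⁻¹ : ℝ) : ℂ) • x with hy
  have hy1 : ‖y‖ = 1 := by
    rw [hy, norm_smul, Complex.norm_real, Real.norm_of_nonneg (by positivity)]; field_simp
  have hy2 : ‖T x‖ ≤ ‖T y‖ := by
    rw [hy, map_smul, norm_smul, Complex.norm_real, Real.norm_of_nonneg (by positivity)]
    have : 1 ≤ ‖x‖⁻¹ := one_le_inv₀ hxn |>.mpr hx1.le
    nlinarith [norm_nonneg (T x)]
  have hy3 : ‖T y‖ ≤ κ := by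
    have := T.le_opNorm y
    rwa [hy1, mul_one] at this
  have hy4 : dist ‖T y‖ κ < ε := by
    rw [Real.dist_eq, abs_lt]
    have := le_max_left (κ - ε) 0
    constructor <;> linarith
  have h1 := hεF hy4
  rw [Real.dist_eq, abs_lt] at h1
  have h2 := key y hy1
  have h3 : ‖(ContinuousLinearMap.adjoint T) (T y) - (κ ^ 2 : ℂ) • y‖
      ≤ Real.sqrt (κ ^ 2 * (κ ^ 2 - ‖T y‖ ^ 2)) := Real.le_sqrt_of_sq_le (happrox y hy1)
  have h4 : (C * C * ‖(ContinuousLinearMap.adjoint T) (T y) - (κ ^ 2 : ℂ) • y‖) / (κ * (κ - 1))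
      ≤ (C * C * Real.sqrt (κ ^ 2 * (κ ^ 2 - ‖T y‖ ^ 2))) / (κ * (κ - 1)) := by
    gcongr
  have h5 : F ‖T y‖ < 0 := by linarith [h1.2]
  simp only [hF] at h5
  linarith

end Vale.Agent.P123
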