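import Mathlib

open Real

namespace Vale.Agent.P123

variable {H : Type*} [NormedAddCommGroup H] [InnerProductSpace ℂ H] [CompleteSpace H]

lemma inv_hasDerivAt {u : ℝ → H →L[ℂ] H} {u' : H →L[ℂ] H} {t : ℝ} (hu : HasDerivAt u u' t)
    (hU : IsUnit (u t)) :
    HasDerivAt (fun s => Ring.inverse (u s))
      (-(Ring.inverse (u t) * u' * Ring.inverse (u t))) t := by
  obtain ⟨x, hx⟩ := hU
  have h1 := (hasFDerivAt_ringInverse (𝕜 := ℂ) x).restrictScalars ℝ
  rw [hx] at h1
  have h2 := h1.comp_hasDerivAt t hu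
  refine h2.congr_deriv ?_
  rw [← hx, Ring.inverse_unit]
  simp

lemma inv_continuousAt {X : Type*} [TopologicalSpace X] {u : X → H →L[ℂ] H} {t : X}
    (hu : ContinuousAt u t) (hU : IsUnit (u t)) :
    ContinuousAt (fun s => Ring.inverse (u s)) t := by
  obtain ⟨x, hx⟩ := hU
  have h1 := NormedRing.inverse_continuousAt x
  rw [hx] at h1
  exact h1.comp hu

omit [CompleteSpace H] in
lemma inv_commute {u B : H →L[ℂ] H} (hU : IsUnit u) (h : Commute B u) :
    Commute B (Ring.inverse u) := by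
  obtain ⟨x, rfl⟩ := hU
  rw [Ring.inverse_unit]
  exact h.units_inv_right

lemma cauchy_one (A : H →L[ℂ] H) (a : ℂ) (σ σ' : ℝ → ℂ) (hσ : ∀ θ, HasDerivAt σ (σ' θ) θ)
    (hσ' : Continuous σ') (hper : σ (2 * π) = σ 0)
    (hunit : ∀ θ, ∀ s ∈ Set.Icc (0 : ℝ) 1,
      IsUnit ((σ θ - a) • (1 : H →L[ℂ] H) - (s : ℂ) • (A - a • 1)))
    (hne : ∀ θ, σ θ - a ≠ 0)
    (hscalar : ∫ θ in (0 : ℝ)..2 * π, σ' θ * (σ θ - a)⁻¹ = 2 * π * Complex.I) :
    ∫ θ in (0 : ℝ)..2 * π, σ' θ • Ring.inverse (σ θ • (1 : H →L[ℂ] H) - A)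
      = (2 * π * Complex.I : ℂ) • (1 : H →L[ℂ] H) := by
  have hσc : Continuous σ := continuous_iff_continuousAt.mpr fun θ => (hσ θ).continuousAt
  set B : H →L[ℂ] H := A - a • 1 with hB
  set u : ℝ → ℝ → H →L[ℂ] H := fun s θ => (σ θ - a) • (1 : H →L[ℂ] H) - (s : ℂ) • B with hu
  set r : ℝ → ℝ → H →L[ℂ] H := fun s θ => Ring.inverse (u s θ) with hr
  have hcomm : ∀ θ, ∀ s ∈ Set.Icc (0 : ℝ) 1, Commute B (r s θ) := by
    intro θ s hs
    apply inv_commute (hunit θ s hs)
    exact ((Commute.one_right B).smul_right _).sub_right ((Commute.refl B).smul_right _)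
  have hjoint : ∀ p : ℝ × ℝ, p.1 ∈ Set.Icc (0 : ℝ) 1 →
      ContinuousAt (fun p : ℝ × ℝ => r p.1 p.2) p := by
    intro p hp
    apply inv_continuousAt (u := fun p : ℝ × ℝ => u p.1 p.2) _ (hunit p.2 p.1 hp)
    simp only [hu]; fun_prop
  have hrθ : ∀ s ∈ Set.Icc (0 : ℝ) 1, Continuous (r s) := by
    intro s hs
    refine continuous_iff_continuousAt.mpr fun θ => ?_
    exact (hjoint (s, θ) hs).comp (f := fun θ => (s, θ)) (by fun_prop)
  have hds : ∀ θ, ∀ s ∈ Set.Icc (0 : ℝ) 1,
      HasDerivAt (fun s => r s θ) (B * (r s θ * r s θ)) s := by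
    intro θ s hs
    have h1 : HasDerivAt (fun s : ℝ => u s θ) (-B) s := by
      have h2 : HasDerivAt (fun s : ℝ => (s : ℂ)) 1 s := Complex.ofRealCLM.hasDerivAt
      have h3 := (h2.smul_const B).const_sub ((σ θ - a) • (1 : H →L[ℂ] H))
      exact h3.congr_deriv (by simp)
    refine (inv_hasDerivAt h1 (hunit θ s hs)).congr_deriv ?_
    change -(r s θ * (-B) * r s θ) = _
    rw [mul_neg, neg_mul, neg_neg, ← (hcomm θ s hs).eq, mul_assoc]
  have hdθ : ∀ θ, ∀ s ∈ Set.Icc (0 : ℝ) 1,
      HasDerivAt (fun θ => -(B * r s θ)) (σ' θ • (B * (r s θ * r s θ))) θ := by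
    intro θ s hs
    have h1 : HasDerivAt (fun θ : ℝ => u s θ) (σ' θ • (1 : H →L[ℂ] H)) θ :=
      (((hσ θ).sub_const a).smul_const (1 : H →L[ℂ] H)).sub_const _
    have h2 := ((inv_hasDerivAt h1 (hunit θ s hs)).const_mul B).neg
    refine h2.congr_deriv ?_
    change -(B * -(r s θ * (σ' θ • 1) * r s θ)) = _
    simp
  have hFc : ContinuousOn (fun p : ℝ × ℝ => σ' p.1 • (B * (r p.2 p.1 * r p.2 p.1)))
      (Set.Icc 0 (2 * π) ×ˢ Set.Icc 0 1) := by
    intro p hp
    have h1 : ContinuousAt (fun p : ℝ × ℝ => r p.2 p.1) p :=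
      (hjoint (p.2, p.1) hp.2).comp (f := fun p : ℝ × ℝ => (p.2, p.1)) (by fun_prop)
    apply ContinuousAt.continuousWithinAt
    exact (hσ'.continuousAt.comp continuousAt_fst).smul (continuousAt_const.mul (h1.mul h1))
  have h2π : (0 : ℝ) ≤ 2 * π := by positivity
  have hswap := MeasureTheory.intervalIntegral_intervalIntegral_swap
    (F := fun θ s => σ' θ • (B * (r s θ * r s θ))) (a := 0) (b := 2 * π) (c := 0) (d := 1) (by
      have := hFc.integrableOn_compact (μ := MeasureTheory.volume) (isCompact_Icc.prod isCompact_Icc)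
      refine this.mono_set ?_
      rw [Set.uIoc_of_le h2π, Set.uIoc_of_le zero_le_one]
      exact Set.prod_mono Set.Ioc_subset_Icc_self Set.Ioc_subset_Icc_self)
  have hL : ∀ θ, ∫ s in (0 : ℝ)..1, σ' θ • (B * (r s θ * r s θ)) = σ' θ • (r 1 θ - r 0 θ) := by
    intro θ
    rw [intervalIntegral.integral_smul]
    congr 1
    apply intervalIntegral.integral_eq_sub_of_hasDerivAt (f := fun s => r s θ)
    · intro s hs
      rw [Set.uIcc_of_le zero_le_one] at hs
      exact hds θ s hs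
    · apply ContinuousOn.intervalIntegrable
      rw [Set.uIcc_of_le zero_le_one]
      intro s hs
      have h1 : ContinuousAt (fun s => r s θ) s := (hds θ s hs).continuousAt
      exact (continuousAt_const.mul (h1.mul h1)).continuousWithinAt
  have hR : ∫ s in (0 : ℝ)..1, ∫ θ in (0 : ℝ)..2 * π, σ' θ • (B * (r s θ * r s θ)) = 0 := by
    rw [intervalIntegral.integral_congr (g := fun _ => 0)]
    · simp
    · intro s hs
      rw [Set.uIcc_of_le zero_le_one] at hs
      have := intervalIntegral.integral_eq_sub_of_hasDerivAt (a := 0) (b := 2 * π)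
        (fun θ _ => hdθ θ s hs) (Continuous.intervalIntegrable (by
          have := hrθ s hs
          fun_prop) _ _)
      simp only [this]
      simp only [hr, hu, hper, sub_self]
  rw [hR] at hswap
  simp only [hL, smul_sub] at hswap
  have h1c := hrθ 1 ⟨zero_le_one, le_rfl⟩
  have h0c := hrθ 0 ⟨le_rfl, zero_le_one⟩
  rw [intervalIntegral.integral_sub (Continuous.intervalIntegrable (by fun_prop) _ _)
    (Continuous.intervalIntegrable (by fun_prop) _ _), sub_eq_zero] at hswap
  have e1 : ∀ θ, r 1 θ = Ring.inverse (σ θ • (1 : H →L[ℂ] H) - A) := by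
    intro θ
    simp only [hr, hu, hB]
    congr 1
    simp [sub_smul]
  have e0 : ∀ θ, σ' θ • r 0 θ = (σ' θ * (σ θ - a)⁻¹) • (1 : H →L[ℂ] H) := by
    intro θ
    have h1 : r 0 θ = (σ θ - a)⁻¹ • (1 : H →L[ℂ] H) := by
      have h2 := Ring.mul_inverse_cancel _ (hunit θ 0 ⟨le_rfl, zero_le_one⟩)
      change u 0 θ * r 0 θ = 1 at h2
      simp only [hu, Complex.ofReal_zero, zero_smul, sub_zero, smul_mul_assoc, one_mul] at h2
      rw [← h2, smul_smul, inv_mul_cancel₀ (hne θ), one_smul]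
    rw [h1, smul_smul]
  simp only [e1, e0] at hswap
  rw [hswap, intervalIntegral.integral_smul_const, hscalar]

lemma cauchy_poly (A : H →L[ℂ] H) (σ σ' : ℝ → ℂ) (hσ : ∀ θ, HasDerivAt σ (σ' θ) θ)
    (hσ' : Continuous σ') (hper : σ (2 * π) = σ 0)
    (hunit : ∀ θ, IsUnit (σ θ • (1 : H →L[ℂ] H) - A)) (c : ℂ)
    (h1 : ∫ θ in (0 : ℝ)..2 * π, (c * σ' θ) • Ring.inverse (σ θ • (1 : H →L[ℂ] H) - A) = 1)
    (P : Polynomial ℂ) :
    ∫ θ in (0 : ℝ)..2 * π, P.eval (σ θ) • (c * σ' θ) • Ring.inverse (σ θ • (1 : H →L[ℂ] H) - A)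
      = Polynomial.aeval A P := by
  have hσc : Continuous σ := continuous_iff_continuousAt.mpr fun θ => (hσ θ).continuousAt
  set r : ℝ → H →L[ℂ] H := fun θ => Ring.inverse (σ θ • (1 : H →L[ℂ] H) - A) with hr
  have hrc : Continuous r := continuous_iff_continuousAt.mpr fun θ =>
    inv_continuousAt (u := fun θ => σ θ • (1 : H →L[ℂ] H) - A) (by fun_prop) (hunit θ)
  have hmono : ∀ n : ℕ, ∫ θ in (0 : ℝ)..2 * π, (σ θ) ^ n • (c * σ' θ) • r θ = A ^ n := by
    intro n
    induction n with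
    | zero => simpa using h1
    | succ n ih =>
      have e1 : ∀ θ, (σ θ) ^ (n + 1) • (c * σ' θ) • r θ
          = (c * ((σ θ) ^ n * σ' θ)) • (1 : H →L[ℂ] H) + A * ((σ θ) ^ n • (c * σ' θ) • r θ) := by
        intro θ
        have h2 := Ring.mul_inverse_cancel _ (hunit θ)
        change (σ θ • (1 : H →L[ℂ] H) - A) * r θ = 1 at h2
        rw [← h2, sub_mul, smul_mul_assoc, one_mul]
        simp only [mul_smul_comm, smul_smul, smul_sub]
        module
      simp only [e1]
      rw [intervalIntegral.integral_add (Continuous.intervalIntegrable (by fun_prop) _ _)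
        (Continuous.intervalIntegrable (by fun_prop) _ _), intervalIntegral.integral_smul_const,
        intervalIntegral.integral_const_mul]
      have e2 : ∫ θ in (0 : ℝ)..2 * π, (σ θ) ^ n * σ' θ = 0 := by
        have := intervalIntegral.integral_eq_sub_of_hasDerivAt (a := 0) (b := 2 * π)
          (f := fun θ => (σ θ) ^ (n + 1) / (n + 1)) (f' := fun θ => (σ θ) ^ n * σ' θ)
          (fun θ _ => by
            have h3 := ((hσ θ).pow (n + 1)).div_const ((n : ℂ) + 1)
            refine h3.congr_deriv ?_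
            have : (n : ℂ) + 1 ≠ 0 := by exact_mod_cast Nat.succ_ne_zero n
            simp; field_simp) (Continuous.intervalIntegrable (by fun_prop) _ _)
        simp only [this, hper, sub_self]
      have e3 := (ContinuousLinearMap.mul ℂ (H →L[ℂ] H) A).intervalIntegral_comp_comm
        (f := fun θ => (σ θ) ^ n • (c * σ' θ) • r θ) (a := 0) (b := 2 * π)
        (μ := MeasureTheory.volume) (Continuous.intervalIntegrable (by fun_prop) _ _)
      simp only [ContinuousLinearMap.mul_apply'] at e3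
      rw [e2, e3, ih, pow_succ']
      simp
  change ∫ θ in (0 : ℝ)..2 * π, P.eval (σ θ) • (c * σ' θ) • r θ = Polynomial.aeval A P
  clear_value r
  induction P using Polynomial.induction_on' with
  | add p q hp hq =>
    simp only [Polynomial.eval_add, add_smul, map_add]
    rw [intervalIntegral.integral_add (Continuous.intervalIntegrable (by fun_prop) _ _)
        (Continuous.intervalIntegrable (by fun_prop) _ _), hp, hq]
  | monomial n b =>
    simp only [Polynomial.eval_monomial, Polynomial.aeval_monomial, mul_smul b]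
    rw [intervalIntegral.integral_smul, hmono, Algebra.algebraMap_eq_smul_one, smul_mul_assoc,
      one_mul]

lemma scalar_winding (σ σ' : ℝ → ℂ) (a : ℂ) (hσ : ∀ θ, HasDerivAt σ (σ' θ) θ)
    (hσ' : Continuous σ') (hper : σ (2 * π) = σ 0)
    (hpos : ∀ θ : ℝ, 0 < (Complex.exp (-(θ * Complex.I)) * (σ θ - a)).re) :
    ∫ θ in (0 : ℝ)..2 * π, σ' θ * (σ θ - a)⁻¹ = 2 * π * Complex.I := by
  have hσc : Continuous σ := continuous_iff_continuousAt.mpr fun θ => (hσ θ).continuousAt
  have hne : ∀ θ, σ θ - a ≠ 0 := by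
    intro θ h
    have := hpos θ
    rw [h] at this; simp at this
  have hd : ∀ θ : ℝ, HasDerivAt
      (fun θ : ℝ => Complex.log (Complex.exp (-(θ * Complex.I)) * (σ θ - a)) + θ * Complex.I)
      (σ' θ * (σ θ - a)⁻¹) θ := by
    intro θ
    have h2 : HasDerivAt (fun s : ℝ => (s : ℂ)) 1 θ := Complex.ofRealCLM.hasDerivAt
    have h3 := (h2.mul_const Complex.I)
    have h4 := (h3.neg.cexp).mul ((hσ θ).sub_const a)
    have h5 := (h4.clog_real (Or.inl (hpos θ))).add h3
    refine h5.congr_deriv ?_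
    have := hne θ
    have := Complex.exp_ne_zero (-(θ * Complex.I))
    simp only [Pi.mul_apply, Pi.neg_apply]
    field_simp
    ring
  rw [intervalIntegral.integral_eq_sub_of_hasDerivAt (fun θ _ => hd θ)
    (Continuous.intervalIntegrable (hσ'.mul ((hσc.sub continuous_const).inv₀ hne)) _ _)]
  have : Complex.exp (-(((2 * π : ℝ) : ℂ) * Complex.I)) = 1 := by
    rw [Complex.exp_neg]; push_cast; rw [Complex.exp_two_pi_mul_I]; simp
  rw [this, hper]
  simp

end Vale.Agent.P123
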