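import Vale.Agent.P123.Main

open scoped InnerProductSpace ComplexConjugate

namespace Vale.Agent.P123

universe u

lemma bdd_image {H : Type*} [NormedAddCommGroup H] [InnerProductSpace ℂ H] (A : H →L[ℂ] H)
    (P : Polynomial ℂ) : BddAbove ((fun z => ‖P.eval z‖) '' W A) := by
  have hPc : Continuous fun z => ‖P.eval z‖ := by fun_prop
  have h1 := ((isCompact_closedBall (0 : ℂ) ‖A‖).image hPc).bddAbove
  exact h1.mono (Set.image_mono fun z hz => by simpa using norm_le_of_mem_W A hz)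

theorem upper (H : Type u) [NormedAddCommGroup H] [InnerProductSpace ℂ H] [CompleteSpace H]
    [Nontrivial H] (A : H →L[ℂ] H) (P : Polynomial ℂ) :
    ‖Polynomial.aeval A P‖ ≤ 2 * sSup ((fun z => ‖P.eval z‖) '' W A) :=
  crouzeix A P _ fun z hz => le_csSup (bdd_image A P) ⟨z, hz, rfl⟩

theorem lower (C : ℝ) (h : ∀ (H : Type u) [NormedAddCommGroup H] [InnerProductSpace ℂ H]
    [CompleteSpace H] [Nontrivial H] (A : H →L[ℂ] H) (P : Polynomial ℂ),
    ‖Polynomial.aeval A P‖ ≤ C * sSup ((fun z => ‖P.eval z‖) '' W A)) : 2 ≤ C := by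
  set i0 : ULift.{u} (Fin 2) := ⟨0⟩ with hi0
  set i1 : ULift.{u} (Fin 2) := ⟨1⟩ with hi1
  have hne : i0 ≠ i1 := by simp [hi0, hi1]
  set e0 : EuclideanSpace ℂ (ULift.{u} (Fin 2)) := EuclideanSpace.single i0 1 with he0
  set e1 : EuclideanSpace ℂ (ULift.{u} (Fin 2)) := EuclideanSpace.single i1 1 with he1
  set A := (innerSL ℂ e1).smulRight e0 with hA
  have h1 := h _ A Polynomial.X
  have hA1 : 1 ≤ ‖A‖ := by
    have := A.le_opNorm e1
    simpa [hA, he0, he1] using this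
  have hs : sSup ((fun z => ‖Polynomial.X.eval z‖) '' W A) ≤ 1 / 2 := by
    apply csSup_le ((W_nonempty A).image _)
    rintro _ ⟨_, ⟨x, hx, rfl⟩, rfl⟩
    have h2 : ⟪x, A x⟫_ℂ = x i1 * conj (x i0) := by
      simp [hA, he0, he1, EuclideanSpace.inner_single_left, EuclideanSpace.inner_single_right]
    have h3 := EuclideanSpace.norm_sq_eq x
    have h4 : ‖x i0‖ ^ 2 + ‖x i1‖ ^ 2 ≤ ∑ i, ‖x i‖ ^ 2 :=
      Finset.add_le_sum (f := fun i => ‖x i‖ ^ 2) (fun _ _ => sq_nonneg _) (Finset.mem_univ _)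
        (Finset.mem_univ _) hne
    rw [← h3, hx] at h4
    simp only [Polynomial.eval_X, h2, norm_mul, Complex.norm_conj]
    nlinarith [sq_nonneg (‖x i0‖ - ‖x i1‖)]
  have hs0 : 0 ≤ sSup ((fun z => ‖Polynomial.X.eval z‖) '' W A) :=
    Real.sSup_nonneg (by rintro _ ⟨z, _, rfl⟩; exact norm_nonneg _)
  rw [Polynomial.aeval_X] at h1
  by_contra hC
  push Not at hC
  generalize sSup ((fun z => ‖Polynomial.X.eval z‖) '' W A) = s at h1 hs hs0
  rcases le_total C 0 with h0 | h0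
  · nlinarith
  · nlinarith

end Vale.Agent.P123
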