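import Mathlib

open scoped InnerProductSpace ComplexConjugate

namespace Vale.Agent.P123

variable {H : Type*} [NormedAddCommGroup H] [InnerProductSpace ℂ H]

/-- numerical range -/
def W (A : H →L[ℂ] H) : Set ℂ := {z | ∃ x : H, ‖x‖ = 1 ∧ ⟪x, A x⟫_ℂ = z}

lemma mem_W_of_ne (A : H →L[ℂ] H) (z : H) (hz : z ≠ 0) (t : ℂ)
    (h : ⟪z, A z⟫_ℂ = t * ((‖z‖ : ℂ) ^ 2)) : t ∈ W A := by
  have hn : 0 < ‖z‖ := norm_pos_iff.mpr hz
  refine ⟨((‖z‖⁻¹ : ℝ) : ℂ) • z, ?_, ?_⟩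
  · rw [norm_smul, Complex.norm_real, Real.norm_of_nonneg (by positivity)]; field_simp
  · rw [map_smul, inner_smul_left, inner_smul_right, h, Complex.conj_ofReal]
    have : (‖z‖ : ℂ) ≠ 0 := by exact_mod_cast hn.ne'
    push_cast; field_simp

lemma th_normalized (B : H →L[ℂ] H) (x y : H) (hx : ‖x‖ = 1) (hy : ‖y‖ = 1)
    (h0 : ⟪x, B x⟫_ℂ = 0) (h1 : ⟪y, B y⟫_ℂ = 1) (t : ℝ) (ht0 : 0 ≤ t) (ht1 : t ≤ 1) :
    ∃ z : H, z ≠ 0 ∧ ⟪z, B z⟫_ℂ = (t : ℂ) * ((‖z‖ : ℂ) ^ 2) := by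
  set p := ⟪x, B y⟫_ℂ
  set q := ⟪y, B x⟫_ℂ
  obtain ⟨lam, hlam1, hlam2⟩ : ∃ lam : ℂ, ‖lam‖ = 1 ∧ (lam * (p - conj q)).im = 0 := by
    by_cases hw : p - conj q = 0
    · exact ⟨1, by simp, by simp [hw]⟩
    · have hn : 0 < ‖p - conj q‖ := norm_pos_iff.mpr hw
      refine ⟨conj (p - conj q) / (‖p - conj q‖ : ℂ), ?_, ?_⟩
      · rw [norm_div, Complex.norm_conj, Complex.norm_real, Real.norm_of_nonneg hn.le]
        field_simp
      · rw [div_mul_eq_mul_div, Complex.conj_mul']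
        have : ((‖p - conj q‖ : ℂ) ^ 2 / (‖p - conj q‖ : ℂ))
            = ((‖p - conj q‖ ^ 2 / ‖p - conj q‖ : ℝ) : ℂ) := by push_cast; ring
        rw [this, Complex.ofReal_im]
  set z : ℝ → H := fun s => ((1 - s : ℝ) : ℂ) • x + ((s : ℂ) * lam) • y with hz
  have hll : conj lam * lam = 1 := by rw [Complex.conj_mul', hlam1]; simp
  have hzB : ∀ s : ℝ, ⟪z s, B (z s)⟫_ℂ
      = (s : ℂ) ^ 2 + ((s * (1 - s) : ℝ) : ℂ) * (lam * p + conj lam * q) := by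
    intro s
    simp only [hz, map_add, map_smul, inner_add_left, inner_add_right, inner_smul_left,
      inner_smul_right, h0, h1, map_mul, Complex.conj_ofReal]
    push_cast
    linear_combination (s : ℂ) ^ 2 * hll
  have him : (lam * p + conj lam * q).im = 0 := by
    have : (lam * p + conj lam * q).im = (lam * (p - conj q)).im := by
      simp [Complex.mul_im]; ring
    rw [this, hlam2]
  have hzc : Continuous z := by rw [hz]; fun_prop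
  set F : ℝ → ℝ := fun s => (⟪z s, B (z s)⟫_ℂ).re - t * ‖z s‖ ^ 2 with hF
  have hFc : Continuous F := by rw [hF]; fun_prop
  have hF0 : F 0 = -t := by simp [hF, hz, h0, hx]
  have hF1 : F 1 = 1 - t := by
    have h2 : ‖z 1‖ = 1 := by simp [hz, norm_smul, hlam1, hy]
    simp only [hF, hzB, h2]; simp
  obtain ⟨s, hs, hs0⟩ : (0 : ℝ) ∈ F '' Set.Icc 0 1 := by
    apply intermediate_value_Icc zero_le_one hFc.continuousOn
    rw [hF0, hF1]; constructor <;> linarith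
  refine ⟨z s, ?_, ?_⟩
  · intro hz0
    have h2 : ((1 - s : ℝ) : ℂ) • x = -(((s : ℂ) * lam) • y) := eq_neg_of_add_eq_zero_left hz0
    have h3 := congrArg norm h2
    rw [norm_neg, norm_smul, norm_smul, hx, hy, norm_mul, hlam1, Complex.norm_real,
      Complex.norm_real, Real.norm_of_nonneg (by linarith [hs.2]), Real.norm_of_nonneg hs.1] at h3
    have hs2 : s = 1 / 2 := by linarith
    have h4 : ⟪((1 - s : ℝ) : ℂ) • x, B (((1 - s : ℝ) : ℂ) • x)⟫_ℂ = 0 := by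
      rw [map_smul, inner_smul_left, inner_smul_right, h0]; simp
    rw [h2, map_neg, inner_neg_neg, map_smul, inner_smul_left, inner_smul_right, h1, hs2] at h4
    simp only [map_mul, Complex.conj_ofReal] at h4
    have : ((1 / 2 : ℝ) : ℂ) ^ 2 = 0 := by linear_combination h4 - ((1 / 2 : ℝ) : ℂ) ^ 2 * hll
    norm_num at this
  · apply Complex.ext
    · have : ((t : ℂ) * ((‖z s‖ : ℂ) ^ 2)) = ((t * ‖z s‖ ^ 2 : ℝ) : ℂ) := by push_cast; ring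
      rw [this, Complex.ofReal_re]
      simp only [hF] at hs0
      linarith
    · have : ((t : ℂ) * ((‖z s‖ : ℂ) ^ 2)) = ((t * ‖z s‖ ^ 2 : ℝ) : ℂ) := by push_cast; ring
      rw [this, Complex.ofReal_im, hzB, Complex.add_im, Complex.im_ofReal_mul, him]
      have : ((s : ℂ) ^ 2) = ((s ^ 2 : ℝ) : ℂ) := by push_cast; ring
      rw [this, Complex.ofReal_im]; simp

theorem convex_W (A : H →L[ℂ] H) : Convex ℝ (W A) := by
  rintro _ ⟨x, hx, rfl⟩ _ ⟨y, hy, rfl⟩ s t hs ht hst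
  set a := ⟪x, A x⟫_ℂ with ha
  set b := ⟪y, A y⟫_ℂ with hb
  by_cases hab : a = b
  · refine ⟨x, hx, ?_⟩
    rw [← hab, ← add_smul, hst, one_smul]
  have hba : b - a ≠ 0 := sub_ne_zero.mpr (Ne.symm hab)
  set B : H →L[ℂ] H := (b - a)⁻¹ • (A - a • (1 : H →L[ℂ] H)) with hB
  have hBz : ∀ z : H, ⟪z, B z⟫_ℂ = (b - a)⁻¹ * (⟪z, A z⟫_ℂ - a * (‖z‖ : ℂ) ^ 2) := by
    intro z
    simp [hB, inner_self_eq_norm_sq_to_K]
  obtain ⟨z, hz0, hz⟩ := th_normalized B x y hx hy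
    (by rw [hBz, hx, ← ha]; simp) (by rw [hBz, hy, ← hb]; simp; field_simp) t ht (by linarith)
  apply mem_W_of_ne A z hz0
  rw [hBz] at hz
  have hs' : (s : ℂ) = 1 - t := by
    have : s = 1 - t := by linarith
    rw [this]; push_cast; ring
  simp only [Complex.real_smul, hs']
  field_simp at hz
  linear_combination hz

lemma norm_le_of_mem_W (A : H →L[ℂ] H) {z : ℂ} (hz : z ∈ W A) : ‖z‖ ≤ ‖A‖ := by
  obtain ⟨x, hx, rfl⟩ := hz
  calc ‖⟪x, A x⟫_ℂ‖ ≤ ‖x‖ * ‖A x‖ := norm_inner_le_norm _ _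
    _ ≤ ‖x‖ * (‖A‖ * ‖x‖) := mul_le_mul_of_nonneg_left (A.le_opNorm x) (norm_nonneg _)
    _ = ‖A‖ := by rw [hx]; ring

lemma W_nonempty [Nontrivial H] (A : H →L[ℂ] H) : (W A).Nonempty := by
  obtain ⟨x, hx⟩ := exists_ne (0 : H)
  have hn : 0 < ‖x‖ := norm_pos_iff.mpr hx
  have : (‖x‖ : ℂ) ≠ 0 := by exact_mod_cast hn.ne'
  exact ⟨⟪x, A x⟫_ℂ / (‖x‖ : ℂ) ^ 2, mem_W_of_ne A x hx _ (by field_simp)⟩

end Vale.Agent.P123
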