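import Mathlib

open Real

namespace Vale.Agent.P123

/-- sublinearity of a function of the angle -/
def Sub (k : ℝ → ℝ) : Prop :=
  ∀ α β γ a b c : ℝ, 0 ≤ a → 0 ≤ b → 0 ≤ c → c * cos γ = a * cos α + b * cos β →
    c * sin γ = a * sin α + b * sin β → c * k γ ≤ a * k α + b * k β

/-- one-sided moving average -/
noncomputable def avg (δ : ℝ) (k : ℝ → ℝ) (θ : ℝ) : ℝ := δ⁻¹ * ∫ s in (0 : ℝ)..δ, k (θ + s)

lemma avg_hasDerivAt (δ : ℝ) (k : ℝ → ℝ) (hk : Continuous k) (θ : ℝ) :
    HasDerivAt (avg δ k) (δ⁻¹ * (k (θ + δ) - k θ)) θ := by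
  have h1 : avg δ k = fun θ => δ⁻¹ * ((∫ s in (0 : ℝ)..(θ + δ), k s) - ∫ s in (0 : ℝ)..θ, k s) := by
    ext θ
    rw [avg, intervalIntegral.integral_comp_add_left k, add_zero,
      intervalIntegral.integral_interval_sub_left (hk.intervalIntegrable _ _)
        (hk.intervalIntegrable _ _)]
  rw [h1]
  apply HasDerivAt.const_mul
  apply HasDerivAt.sub
  · exact ((hk.integral_hasStrictDerivAt 0 (θ + δ)).hasDerivAt).comp_add_const θ δ
  · exact (hk.integral_hasStrictDerivAt 0 θ).hasDerivAt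

lemma avg_continuous (δ : ℝ) (k : ℝ → ℝ) (hk : Continuous k) : Continuous (avg δ k) :=
  continuous_iff_continuousAt.mpr fun θ => (avg_hasDerivAt δ k hk θ).continuousAt

lemma avg_sub {δ : ℝ} (hδ : 0 < δ) {k : ℝ → ℝ} (hk : Continuous k) (hS : Sub k) :
    Sub (avg δ k) := by
  intro α β γ a b c ha hb hc h1 h2
  have hi : ∀ θ : ℝ, IntervalIntegrable (fun s => k (θ + s)) MeasureTheory.volume 0 δ :=
    fun θ => Continuous.intervalIntegrable (by fun_prop) _ _
  have : c * ∫ s in (0 : ℝ)..δ, k (γ + s)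
      ≤ (a * ∫ s in (0 : ℝ)..δ, k (α + s)) + b * ∫ s in (0 : ℝ)..δ, k (β + s) := by
    rw [← intervalIntegral.integral_const_mul, ← intervalIntegral.integral_const_mul,
      ← intervalIntegral.integral_const_mul,
      ← intervalIntegral.integral_add ((hi α).const_mul a) ((hi β).const_mul b)]
    apply intervalIntegral.integral_mono_on hδ.le ((hi γ).const_mul c)
      (((hi α).const_mul a).add ((hi β).const_mul b))
    intro s _
    apply hS _ _ _ _ _ _ ha hb hc
    · simp only [cos_add]; linear_combination cos s * h1 - sin s * h2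
    · simp only [sin_add]; linear_combination cos s * h2 + sin s * h1
  have h3 := mul_le_mul_of_nonneg_left this (inv_nonneg.mpr hδ.le)
  simp only [avg]
  linarith

lemma avg_periodic (δ : ℝ) {k : ℝ → ℝ} (hp : ∀ θ, k (θ + 2 * π) = k θ) (θ : ℝ) :
    avg δ k (θ + 2 * π) = avg δ k θ := by
  simp only [avg]
  congr 2
  ext s
  rw [← hp (θ + s)]; congr 1; ring

lemma avg_close {δ : ℝ} (hδ : 0 < δ) {k h : ℝ → ℝ} (hk : Continuous k) {L η : ℝ} (hL : 0 ≤ L)
    (hh : ∀ x y, |h x - h y| ≤ L * |x - y|) (hkh : ∀ x, |k x - h x| ≤ η) (θ : ℝ) :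
    |avg δ k θ - h θ| ≤ η + L * δ := by
  have h1 : avg δ k θ - h θ = δ⁻¹ * ∫ s in (0 : ℝ)..δ, (k (θ + s) - h θ) := by
    rw [intervalIntegral.integral_sub (Continuous.intervalIntegrable (by fun_prop) _ _)
      (by simp), intervalIntegral.integral_const, avg]
    simp only [sub_zero, smul_eq_mul]
    field_simp
  have h2 : ‖∫ s in (0 : ℝ)..δ, (k (θ + s) - h θ)‖ ≤ (η + L * δ) * |δ - 0| := by
    apply intervalIntegral.norm_integral_le_of_norm_le_const
    intro s hs
    rw [Set.uIoc_of_le hδ.le] at hs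
    have h3 := hkh (θ + s)
    have h4 := hh (θ + s) θ
    rw [add_sub_cancel_left, abs_of_pos hs.1] at h4
    have h5 : L * s ≤ L * δ := mul_le_mul_of_nonneg_left hs.2 hL
    rw [Real.norm_eq_abs]
    calc |k (θ + s) - h θ| = |(k (θ + s) - h (θ + s)) + (h (θ + s) - h θ)| := by ring_nf
      _ ≤ |k (θ + s) - h (θ + s)| + |h (θ + s) - h θ| := abs_add_le _ _
      _ ≤ η + L * δ := by linarith
  rw [sub_zero, abs_of_pos hδ, Real.norm_eq_abs] at h2
  rw [h1, abs_mul, abs_of_pos (inv_pos.mpr hδ)]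
  calc δ⁻¹ * |∫ s in (0 : ℝ)..δ, (k (θ + s) - h θ)| ≤ δ⁻¹ * ((η + L * δ) * δ) :=
        mul_le_mul_of_nonneg_left h2 (inv_nonneg.mpr hδ.le)
    _ = η + L * δ := by field_simp

lemma deriv_nonneg_right {u : ℝ → ℝ} {u' : ℝ} (hu : HasDerivAt u u' 0)
    (h : ∀ᶠ t in nhdsWithin (0 : ℝ) (Set.Ioi 0), u 0 ≤ u t) : 0 ≤ u' := by
  have h1 := hu.tendsto_slope_zero_right
  apply ge_of_tendsto h1
  filter_upwards [h, self_mem_nhdsWithin] with t ht ht0
  simp only [zero_add, smul_eq_mul]
  exact mul_nonneg (inv_nonneg.mpr (le_of_lt ht0)) (by linarith)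

lemma tangent_pos {g : ℝ → ℝ} (hS : Sub g) {θ g' α : ℝ} (hg : HasDerivAt g g' θ)
    (hα : 0 < sin α) : g θ * cos α + g' * sin α ≤ g (θ + α) := by
  have hd : HasDerivAt (fun t => sin (α - t) * g θ + sin t * g (θ + α) - sin α * g (θ + t))
      (-cos α * g θ + g (θ + α) - sin α * g') 0 := by
    have h1 : HasDerivAt (fun t => sin (α - t)) (-cos α) 0 := by
      have := ((hasDerivAt_id (0 : ℝ)).const_sub α).sin
      simpa using this
    have h2 : HasDerivAt (fun t => g (θ + t)) g' 0 := by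
      have : HasDerivAt g g' (θ + 0) := by simpa using hg
      exact this.comp_const_add θ 0
    have h3 := ((h1.mul_const (g θ)).add ((hasDerivAt_sin 0).mul_const (g (θ + α)))).sub
      (h2.const_mul (sin α))
    exact h3.congr_deriv (by simp)
  have := deriv_nonneg_right hd (by
    have e1 : ∀ᶠ t in nhds (0 : ℝ), 0 < sin (α - t) := by
      have : ContinuousAt (fun t => sin (α - t)) 0 := by fun_prop
      exact this.eventually (lt_mem_nhds (by simpa using hα))
    have e2 : ∀ᶠ t in nhds (0 : ℝ), t < π := gt_mem_nhds pi_pos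
    filter_upwards [nhdsWithin_le_nhds e1, nhdsWithin_le_nhds e2, self_mem_nhdsWithin]
      with t h1 h2 h3
    have h4 : 0 ≤ sin t := sin_nonneg_of_nonneg_of_le_pi (le_of_lt h3) h2.le
    have := hS θ (θ + α) (θ + t) (sin (α - t)) (sin t) (sin α) h1.le h4 hα.le
      (by simp only [cos_add, sin_sub]; ring) (by simp only [sin_add, sin_sub]; ring)
    simp only [sub_zero, sin_zero, add_zero]
    linarith)
  linarith

lemma sub_neg {g : ℝ → ℝ} (hS : Sub g) : Sub (fun t => g (-t)) := by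
  intro α β γ a b c ha hb hc h1 h2
  apply hS _ _ _ _ _ _ ha hb hc
  · simpa using h1
  · simp only [sin_neg]; linarith

lemma tangent {g : ℝ → ℝ} (hS : Sub g) {θ g' : ℝ} (hg : HasDerivAt g g' θ) (α : ℝ) :
    g θ * cos α + g' * sin α ≤ g (θ + α) := by
  rcases lt_trichotomy 0 (sin α) with h | h | h
  · exact tangent_pos hS hg h
  · have h1 : cos α ^ 2 = 1 := by nlinarith [sin_sq_add_cos_sq α]
    rcases sq_eq_one_iff.mp h1 with h2 | h2
    · have := hS (θ + α) 0 θ 1 0 1 zero_le_one le_rfl zero_le_one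
        (by simp [cos_add, h2, ← h]) (by simp [sin_add, h2, ← h])
      rw [h2, ← h]; linarith
    · have := hS (θ + α) θ θ 1 1 0 zero_le_one zero_le_one le_rfl
        (by simp [cos_add, h2, ← h]) (by simp [sin_add, h2, ← h])
      rw [h2, ← h]; linarith
  · have hg' : HasDerivAt (fun t => g (-t)) (-g') (-θ) := by
      have : HasDerivAt g g' (- -θ) := by simpa using hg
      exact (this.comp (-θ) (hasDerivAt_neg (-θ))).congr_deriv (by simp)
    have := tangent_pos (sub_neg hS) hg' (α := -α) (by simpa using h)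
    simp only [neg_neg, cos_neg, sin_neg] at this
    have e : -(-θ + -α) = θ + α := by ring
    rw [e] at this
    linarith

lemma second_nonneg {g g' : ℝ → ℝ} (hS : Sub g) (hg : ∀ θ, HasDerivAt g (g' θ) θ) {θ g'' : ℝ}
    (hg' : HasDerivAt g' g'' θ) : 0 ≤ g θ + g'' := by
  have hd : HasDerivAt (fun t => (g (θ + t) + g θ) * (sin t / (1 + cos t)) + (g' (θ + t) - g' θ))
      (g θ + g'') 0 := by
    have h1 : HasDerivAt (fun t => g (θ + t)) (g' θ) 0 := by
      have : HasDerivAt g (g' θ) (θ + 0) := by simpa using hg θ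
      exact this.comp_const_add θ 0
    have h2 : HasDerivAt (fun t => g' (θ + t)) g'' 0 := by
      have : HasDerivAt g' g'' (θ + 0) := by simpa using hg'
      exact this.comp_const_add θ 0
    have h3 := (hasDerivAt_sin 0).div ((hasDerivAt_cos 0).const_add 1) (by norm_num)
    have h4 := ((h1.add_const (g θ)).mul h3).add (h2.sub_const (g' θ))
    exact h4.congr_deriv (by simp; ring)
  apply deriv_nonneg_right hd
  have e2 : ∀ᶠ t in nhds (0 : ℝ), t < π := gt_mem_nhds pi_pos
  filter_upwards [nhdsWithin_le_nhds e2, self_mem_nhdsWithin] with t h2 h3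
  have h4 : 0 < sin t := sin_pos_of_pos_of_lt_pi h3 h2
  have h5 := tangent hS (hg θ) t
  have h6 := tangent hS (hg (θ + t)) (-t)
  simp only [cos_neg, sin_neg, add_neg_cancel_right] at h6
  have h7 : 0 < 1 + cos t := by
    have := neg_one_le_cos t
    have h8 : cos t ≠ -1 := by
      intro h9
      have := sin_sq_add_cos_sq t
      rw [h9] at this; nlinarith
    have := lt_of_le_of_ne this (Ne.symm h8)
    linarith
  have h8 : sin t / (1 + cos t) * sin t = 1 - cos t := by
    field_simp; nlinarith [sin_sq_add_cos_sq t]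
  simp only [add_zero, sin_zero, zero_div, mul_zero, sub_self]
  have : 0 ≤ ((g (θ + t) + g θ) * (sin t / (1 + cos t)) + (g' (θ + t) - g' θ)) * sin t := by
    have : ((g (θ + t) + g θ) * (sin t / (1 + cos t)) + (g' (θ + t) - g' θ)) * sin t
        = (g (θ + t) + g θ) * (1 - cos t) + (g' (θ + t) - g' θ) * sin t := by
      rw [← h8]; ring
    rw [this]; linarith
  exact nonneg_of_mul_nonneg_left this h4

theorem exists_smooth_support (K : Set ℂ) (hne : K.Nonempty) (L : ℝ) (hb : ∀ w ∈ K, ‖w‖ ≤ L)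
    (ε : ℝ) (hε : 0 < ε) :
    ∃ g g' g'' : ℝ → ℝ, (∀ θ, HasDerivAt g (g' θ) θ) ∧ (∀ θ, HasDerivAt g' (g'' θ) θ) ∧
      Continuous g'' ∧ g (2 * π) = g 0 ∧ g' (2 * π) = g' 0 ∧ (∀ θ, 0 ≤ g θ + g'' θ) ∧
      (∀ θ, ∀ w ∈ K, w.re * cos θ + w.im * sin θ + ε ≤ g θ) ∧
      (∀ θ ψ t, (∀ w ∈ K, w.re * cos ψ + w.im * sin ψ ≤ t) →
        g θ * cos (ψ - θ) + g' θ * sin (ψ - θ) ≤ t + 3 * ε) := by
  obtain ⟨w0, hw0⟩ := hne
  have hL : 0 ≤ L := (norm_nonneg _).trans (hb w0 hw0)
  set h : ℝ → ℝ := fun θ => sSup ((fun w : ℂ => w.re * cos θ + w.im * sin θ) '' K) with hh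
  have hre : ∀ w ∈ K, |w.re| ≤ L := fun w hw => (Complex.abs_re_le_norm w).trans (hb w hw)
  have him : ∀ w ∈ K, |w.im| ≤ L := fun w hw => (Complex.abs_im_le_norm w).trans (hb w hw)
  have hle : ∀ θ, ∀ w ∈ K, w.re * cos θ + w.im * sin θ ≤ h θ := by
    intro θ w hw
    refine le_csSup (s := (fun w : ℂ => w.re * cos θ + w.im * sin θ) '' K) ?_ ⟨w, hw, rfl⟩
    refine ⟨2 * L, ?_⟩
    rintro _ ⟨v, hv, rfl⟩
    have h1 : |v.re * cos θ| ≤ L := by
      rw [abs_mul]; nlinarith [abs_cos_le_one θ, hre v hv, abs_nonneg v.re, abs_nonneg (cos θ)]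
    have h2 : |v.im * sin θ| ≤ L := by
      rw [abs_mul]; nlinarith [abs_sin_le_one θ, him v hv, abs_nonneg v.im, abs_nonneg (sin θ)]
    have := le_abs_self (v.re * cos θ)
    have := le_abs_self (v.im * sin θ)
    simp only; linarith
  have hge : ∀ θ t, (∀ w ∈ K, w.re * cos θ + w.im * sin θ ≤ t) → h θ ≤ t := by
    intro θ t ht
    refine csSup_le (s := (fun w : ℂ => w.re * cos θ + w.im * sin θ) '' K) ⟨_, w0, hw0, rfl⟩ ?_
    rintro _ ⟨v, hv, rfl⟩
    exact ht v hv
  have hlip1 : ∀ x y, h x ≤ h y + 2 * L * |x - y| := by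
    intro x y
    apply hge
    intro w hw
    have h1 := hle y w hw
    have h2 : |w.re * (cos x - cos y)| ≤ L * |x - y| := by
      rw [abs_mul]; exact mul_le_mul (hre w hw) (abs_cos_sub_cos_le x y) (abs_nonneg _) hL
    have h3 : |w.im * (sin x - sin y)| ≤ L * |x - y| := by
      rw [abs_mul]; exact mul_le_mul (him w hw) (abs_sin_sub_sin_le x y) (abs_nonneg _) hL
    have := le_abs_self (w.re * (cos x - cos y))
    have := le_abs_self (w.im * (sin x - sin y))
    linarith
  have hlip : ∀ x y, |h x - h y| ≤ 2 * L * |x - y| := by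
    intro x y
    have h1 := hlip1 x y
    have h2 := hlip1 y x
    rw [abs_sub_comm y x] at h2
    rw [abs_le]; constructor <;> linarith
  have hcont : Continuous h := by
    have : LipschitzWith (Real.toNNReal (2 * L)) h := by
      apply LipschitzWith.of_dist_le_mul
      intro x y
      rw [Real.dist_eq, Real.dist_eq, Real.coe_toNNReal _ (by linarith)]
      exact hlip x y
    exact this.continuous
  have hS : Sub h := by
    intro α β γ a b c ha hb' hc h1 h2
    have key : ∀ w ∈ K, c * (w.re * cos γ + w.im * sin γ) ≤ a * h α + b * h β := by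
      intro w hw
      have e : c * (w.re * cos γ + w.im * sin γ)
          = a * (w.re * cos α + w.im * sin α) + b * (w.re * cos β + w.im * sin β) := by
        linear_combination w.re * h1 + w.im * h2
      rw [e]
      exact add_le_add (mul_le_mul_of_nonneg_left (hle α w hw) ha)
        (mul_le_mul_of_nonneg_left (hle β w hw) hb')
    rcases eq_or_lt_of_le hc with hc0 | hc0
    · have := key w0 hw0
      rw [← hc0] at this ⊢
      simpa using this
    · have := hge γ ((a * h α + b * h β) / c) (fun w hw => by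
        rw [le_div_iff₀ hc0]; linarith [key w hw])
      rw [le_div_iff₀ hc0] at this
      linarith
  have hper : ∀ θ, h (θ + 2 * π) = h θ := by
    intro θ; simp only [hh, cos_add_two_pi, sin_add_two_pi]
  set δ : ℝ := ε / (4 * L + 1) with hδ
  have hδ0 : 0 < δ := by positivity
  have hδL : 4 * L * δ ≤ ε := by
    rw [hδ, ← mul_div_assoc, div_le_iff₀ (by positivity)]; nlinarith
  set h1 := avg δ h with hh1
  have h1c : Continuous h1 := avg_continuous δ h hcont
  have hc1 : ∀ x, |h1 x - h x| ≤ 0 + 2 * L * δ :=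
    avg_close hδ0 hcont (by linarith) hlip (by simp)
  have hc2 : ∀ x, |avg δ h1 x - h x| ≤ 0 + 2 * L * δ + 2 * L * δ :=
    avg_close hδ0 h1c (by linarith) hlip hc1
  have hS2 : Sub (avg δ h1) := avg_sub hδ0 h1c (avg_sub hδ0 hcont hS)
  have hd1 : ∀ θ, HasDerivAt (avg δ h1) (δ⁻¹ * (h1 (θ + δ) - h1 θ)) θ := avg_hasDerivAt δ h1 h1c
  have hd2 : ∀ θ, HasDerivAt (fun θ => δ⁻¹ * (h1 (θ + δ) - h1 θ))
      (δ⁻¹ * (δ⁻¹ * (h (θ + δ + δ) - h (θ + δ)) - δ⁻¹ * (h (θ + δ) - h θ))) θ := by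
    intro θ
    apply HasDerivAt.const_mul
    exact ((avg_hasDerivAt δ h hcont (θ + δ)).comp_add_const θ δ).sub
      (avg_hasDerivAt δ h hcont θ)
  have hp1 : ∀ θ, h1 (θ + 2 * π) = h1 θ := avg_periodic δ hper
  refine ⟨fun θ => avg δ h1 θ + 2 * ε, fun θ => δ⁻¹ * (h1 (θ + δ) - h1 θ),
    fun θ => δ⁻¹ * (δ⁻¹ * (h (θ + δ + δ) - h (θ + δ)) - δ⁻¹ * (h (θ + δ) - h θ)),
    fun θ => (hd1 θ).add_const _, hd2, by fun_prop, ?_, ?_, ?_, ?_, ?_⟩
  · have := avg_periodic δ hp1 0
    simp only [zero_add] at this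
    simp only [this]
  · have e1 := hp1 0
    have e2 := hp1 δ
    simp only [zero_add] at e1 ⊢
    rw [e1, add_comm (2 * π) δ, e2]
  · intro θ
    have := second_nonneg hS2 hd1 (hd2 θ)
    simp only; linarith
  · intro θ w hw
    have := (abs_le.mp (hc2 θ)).1
    have := hle θ w hw
    simp only; linarith
  · intro θ ψ t ht
    have e1 := tangent hS2 (hd1 θ) (ψ - θ)
    rw [add_sub_cancel] at e1
    have e2 := (abs_le.mp (hc2 ψ)).2
    have e3 := hge ψ t ht
    have e4 : 2 * ε * cos (ψ - θ) ≤ 2 * ε := by nlinarith [cos_le_one (ψ - θ)]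
    simp only; linarith

end Vale.Agent.P123
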