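import Vale.Agent.P123.Abstract
import Vale.Agent.P123.NumRange
import Vale.Agent.P123.Support
import Vale.Agent.P123.Contour

open Real
open scoped InnerProductSpace ComplexConjugate

namespace Vale.Agent.P123

variable {H : Type*} [NormedAddCommGroup H] [InnerProductSpace ℂ H] [CompleteSpace H]

lemma re_exp_mul (θ : ℝ) (w : ℂ) :
    (Complex.exp (-(θ * Complex.I)) * w).re = w.re * cos θ + w.im * sin θ := by
  have : -((θ : ℂ) * Complex.I) = ((-θ : ℝ) : ℂ) * Complex.I := by push_cast; ring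
  rw [this, Complex.mul_re, Complex.exp_ofReal_mul_I_re, Complex.exp_ofReal_mul_I_im]
  simp; ring

omit [CompleteSpace H] in
lemma quad_le (A : H →L[ℂ] H) (θ c : ℝ)
    (h : ∀ w ∈ W A, w.re * cos θ + w.im * sin θ ≤ c) (x : H) :
    (Complex.exp (-(θ * Complex.I)) * ⟪x, A x⟫_ℂ).re ≤ c * ‖x‖ ^ 2 := by
  by_cases hx : x = 0
  · simp [hx]
  have hn : 0 < ‖x‖ := norm_pos_iff.mpr hx
  have hn' : (‖x‖ : ℂ) ≠ 0 := by exact_mod_cast hn.ne'
  have h1 := h _ (mem_W_of_ne A x hx (⟪x, A x⟫_ℂ / (‖x‖ : ℂ) ^ 2) (by field_simp))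
  rw [← re_exp_mul] at h1
  have h2 : Complex.exp (-(θ * Complex.I)) * ⟪x, A x⟫_ℂ
      = ((‖x‖ ^ 2 : ℝ) : ℂ) * (Complex.exp (-(θ * Complex.I)) * (⟪x, A x⟫_ℂ / (‖x‖ : ℂ) ^ 2)) := by
    push_cast; field_simp
  rw [h2, Complex.re_ofReal_mul]
  nlinarith [sq_nonneg ‖x‖]

lemma near_closure {K : Set ℂ} (hne : K.Nonempty) (hK : Convex ℝ K) (z : ℂ) (η : ℝ) (hη : 0 ≤ η)
    (h : ∀ ψ t : ℝ, (∀ w ∈ K, w.re * cos ψ + w.im * sin ψ ≤ t) →
      z.re * cos ψ + z.im * sin ψ ≤ t + η) :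
    ∃ p ∈ closure K, dist z p ≤ η := by
  obtain ⟨p, hp, hmin⟩ := exists_norm_eq_iInf_of_complete_convex hne.closure
    isClosed_closure.isComplete hK.closure z
  have hin := (norm_eq_iInf_iff_real_inner_le_zero hK.closure hp).mp hmin
  refine ⟨p, hp, ?_⟩
  rw [dist_eq_norm]
  by_cases hz : z - p = 0
  · rw [hz]; simpa using hη
  have hn : 0 < ‖z - p‖ := norm_pos_iff.mpr hz
  have hc := Complex.cos_arg hz
  have hs := Complex.sin_arg (z - p)
  have h1 := h (z - p).arg (p.re * cos (z - p).arg + p.im * sin (z - p).arg) (by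
    intro w hw
    have h2 := hin w (subset_closure hw)
    rw [Complex.inner] at h2
    simp only [Complex.mul_re, Complex.conj_re, Complex.conj_im] at h2
    rw [hc, hs]
    have : (w.re - p.re) * ((z - p).re / ‖z - p‖) + (w.im - p.im) * ((z - p).im / ‖z - p‖) ≤ 0 := by
      have e : (w.re - p.re) * ((z - p).re / ‖z - p‖) + (w.im - p.im) * ((z - p).im / ‖z - p‖)
          = ((w - p).re * (z - p).re - (w - p).im * -(z - p).im) / ‖z - p‖ := by
        simp only [Complex.sub_re w, Complex.sub_im w]; ring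
      rw [e]
      exact div_nonpos_of_nonpos_of_nonneg h2 hn.le
    linarith)
  have e : ‖z - p‖ = (z - p).re * cos (z - p).arg + (z - p).im * sin (z - p).arg := by
    rw [hc, hs]
    field_simp
    rw [Complex.sq_norm, Complex.normSq_apply]; ring
  rw [e]
  simp only [Complex.sub_re, Complex.sub_im] at h1 ⊢
  linarith

theorem crouzeix_aux [Nontrivial H] (A : H →L[ℂ] H) (P : Polynomial ℂ) (M : ℝ)
    (hM : ∀ z ∈ W A, ‖P.eval z‖ ≤ M) (η : ℝ) (hη : 0 < η) :
    ‖Polynomial.aeval A P‖ ≤ 2 * (M + η) := by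
  obtain ⟨a, ha⟩ := W_nonempty A
  have hM0 : 0 ≤ M := (norm_nonneg _).trans (hM a ha)
  have hcomp : IsCompact (closure (W A)) := by
    apply Bornology.IsBounded.isCompact_closure
    exact (Metric.isBounded_closedBall (x := (0 : ℂ)) (r := ‖A‖)).subset
      (fun z hz => by simpa using norm_le_of_mem_W A hz)
  have hPc : Continuous fun z => ‖P.eval z‖ := by fun_prop
  obtain ⟨ρ, hρ, hρU⟩ := hcomp.exists_cthickening_subset_open
    (isOpen_lt hPc (continuous_const (y := M + η))) (by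
      intro z hz
      have : ‖P.eval z‖ ≤ M := closure_minimal hM (isClosed_le hPc continuous_const) hz
      simp only [Set.mem_ofPred_eq]; linarith)
  set ε := ρ / 3 with hε
  have hε0 : 0 < ε := by positivity
  obtain ⟨g, g', g'', hg, hg', hg''c, hgp, hg'p, hcurv, hlow, hup⟩ :=
    exists_smooth_support (W A) ⟨a, ha⟩ ‖A‖ (fun w hw => norm_le_of_mem_W A hw) ε hε0
  have hgc : Continuous g := continuous_iff_continuousAt.mpr fun θ => (hg θ).continuousAt
  set σ : ℝ → ℂ := fun θ => ((g θ : ℂ) + (g' θ : ℂ) * Complex.I) * Complex.exp (θ * Complex.I)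
    with hσ
  set σ' : ℝ → ℂ := fun θ => Complex.I * ((g θ + g'' θ : ℝ) : ℂ) * Complex.exp (θ * Complex.I)
    with hσ'
  have hσd : ∀ θ, HasDerivAt σ (σ' θ) θ := by
    intro θ
    have h2 : HasDerivAt (fun s : ℝ => (s : ℂ)) 1 θ := Complex.ofRealCLM.hasDerivAt
    have h3 := ((hg θ).ofReal_comp.add ((hg' θ).ofReal_comp.mul_const Complex.I)).mul
      (h2.mul_const Complex.I).cexp
    refine h3.congr_deriv ?_
    simp only [hσ', Pi.add_apply]
    push_cast
    linear_combination (g' θ : ℂ) * Complex.exp (θ * Complex.I) * Complex.I_mul_I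
  have hσ'c : Continuous σ' := by rw [hσ']; fun_prop
  have hσc : Continuous σ := continuous_iff_continuousAt.mpr fun θ => (hσd θ).continuousAt
  have hper : σ (2 * π) = σ 0 := by
    simp only [hσ, hgp, hg'p]
    push_cast
    rw [Complex.exp_two_pi_mul_I]; simp
  have hEσ : ∀ θ : ℝ, Complex.exp (-(θ * Complex.I)) * σ θ = (g θ : ℂ) + (g' θ : ℂ) * Complex.I := by
    intro θ
    simp only [hσ]
    rw [Complex.exp_neg]
    have := Complex.exp_ne_zero (θ * Complex.I)
    field_simp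
  have hσre : ∀ θ ψ : ℝ, (σ θ).re * cos ψ + (σ θ).im * sin ψ
      = g θ * cos (ψ - θ) + g' θ * sin (ψ - θ) := by
    intro θ ψ
    simp only [hσ, Complex.mul_re, Complex.mul_im, Complex.exp_ofReal_mul_I_re,
      Complex.exp_ofReal_mul_I_im, cos_sub, sin_sub]
    simp; ring
  have hPσ : ∀ θ, ‖P.eval (σ θ)‖ ≤ M + η := by
    intro θ
    obtain ⟨p, hp, hdist⟩ := near_closure ⟨a, ha⟩ (convex_W A) (σ θ) ρ hρ.le (by
      intro ψ t ht
      rw [hσre]
      have := hup θ ψ t ht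
      linarith)
    exact le_of_lt (hρU (Metric.mem_cthickening_of_dist_le _ _ _ _ hp hdist))
  have hcoer : ∀ θ : ℝ, ∀ s ∈ Set.Icc (0 : ℝ) 1, ∀ x : H, ε * ‖x‖ ^ 2 ≤
      (Complex.exp (-(θ * Complex.I)) *
        ⟪x, ((σ θ - a) • (1 : H →L[ℂ] H) - (s : ℂ) • (A - a • 1)) x⟫_ℂ).re := by
    intro θ s hs x
    have h1 := quad_le A θ (g θ - ε) (fun w hw => by linarith [hlow θ w hw]) x
    have h2 := hlow θ a ha
    rw [← re_exp_mul] at h2
    have h3 : Complex.exp (-(θ * Complex.I)) *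
        ⟪x, ((σ θ - a) • (1 : H →L[ℂ] H) - (s : ℂ) • (A - a • 1)) x⟫_ℂ
        = ((‖x‖ ^ 2 : ℝ) : ℂ) * ((g θ : ℂ) + (g' θ : ℂ) * Complex.I)
          - (((1 - s) * ‖x‖ ^ 2 : ℝ) : ℂ) * (Complex.exp (-(θ * Complex.I)) * a)
          - (s : ℂ) * (Complex.exp (-(θ * Complex.I)) * ⟪x, A x⟫_ℂ) := by
      rw [← hEσ]
      simp [inner_self_eq_norm_sq_to_K]
      ring
    rw [h3, Complex.sub_re, Complex.sub_re, Complex.re_ofReal_mul, Complex.re_ofReal_mul,
      Complex.re_ofReal_mul]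
    have h4 : ((g θ : ℂ) + (g' θ : ℂ) * Complex.I).re = g θ := by simp
    rw [h4]
    have h5 : 0 ≤ (1 - s) * ‖x‖ ^ 2 := mul_nonneg (by linarith [hs.2]) (sq_nonneg _)
    have h6 := mul_le_mul_of_nonneg_left h1 hs.1
    have h7 := mul_le_mul_of_nonneg_left h2 h5
    nlinarith
  have hunit : ∀ θ, ∀ s ∈ Set.Icc (0 : ℝ) 1,
      IsUnit ((σ θ - a) • (1 : H →L[ℂ] H) - (s : ℂ) • (A - a • 1)) := by
    intro θ s hs
    apply ContinuousLinearMap.isUnit_of_forall_le_norm_inner_map _ (c := ⟨ε, hε0.le⟩) hε0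
    intro x
    have h1 := (hcoer θ s hs x).trans (Complex.re_le_norm _)
    have h2 : ‖Complex.exp (-(θ * Complex.I))‖ = 1 := by
      rw [Complex.exp_neg, norm_inv, Complex.norm_exp_ofReal_mul_I]; simp
    rw [norm_mul, h2, one_mul, norm_inner_symm] at h1
    change ‖x‖ ^ 2 * ε ≤ _
    linarith
  have e1 : ∀ θ, (σ θ - a) • (1 : H →L[ℂ] H) - ((1 : ℝ) : ℂ) • (A - a • 1)
      = σ θ • (1 : H →L[ℂ] H) - A := by
    intro θ; simp [sub_smul]
  have hunit1 : ∀ θ, IsUnit (σ θ • (1 : H →L[ℂ] H) - A) := fun θ =>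
    e1 θ ▸ hunit θ 1 ⟨zero_le_one, le_rfl⟩
  have hpos : ∀ θ : ℝ, 0 < (Complex.exp (-(θ * Complex.I)) * (σ θ - a)).re := by
    intro θ
    have h2 := hlow θ a ha
    rw [← re_exp_mul] at h2
    rw [mul_sub, hEσ, Complex.sub_re]
    have h4 : ((g θ : ℂ) + (g' θ : ℂ) * Complex.I).re = g θ := by simp
    rw [h4]; linarith
  have hne : ∀ θ, σ θ - a ≠ 0 := by
    intro θ h
    have := hpos θ
    rw [h] at this; simp at this
  have hone := cauchy_one A a σ σ' hσd hσ'c hper hunit hne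
    (scalar_winding σ σ' a hσd hσ'c hper hpos)
  set c : ℂ := (2 * π * Complex.I)⁻¹ with hc
  have hπ : (π : ℂ) ≠ 0 := by exact_mod_cast pi_ne_zero
  have hc0 : (2 * π * Complex.I : ℂ) ≠ 0 := by simp [hπ]
  have hone' : ∫ θ in (0 : ℝ)..2 * π, (c * σ' θ) • Ring.inverse (σ θ • (1 : H →L[ℂ] H) - A) = 1 := by
    simp only [mul_smul]
    rw [intervalIntegral.integral_smul, hone, smul_smul, hc, inv_mul_cancel₀ hc0, one_smul]
  have hMη : 0 < M + η := by linarith
  set Q : Polynomial ℂ := Polynomial.C (((M + η)⁻¹ : ℝ) : ℂ) * P with hQ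
  have hrc : Continuous fun θ => Ring.inverse (σ θ • (1 : H →L[ℂ] H) - A) :=
    continuous_iff_continuousAt.mpr fun θ =>
      inv_continuousAt (u := fun θ => σ θ • (1 : H →L[ℂ] H) - A) (by fun_prop) (hunit1 θ)
  have hT := abstract_bound (Polynomial.aeval A Q)
    (fun θ => (c * σ' θ) • Ring.inverse (σ θ • (1 : H →L[ℂ] H) - A)) (fun θ => Q.eval (σ θ))
    0 (2 * π) (by positivity) ((continuous_const.mul hσ'c).smul hrc) (by fun_prop)
    (by
      intro θ
      simp only [hQ, Polynomial.eval_mul, Polynomial.eval_C, norm_mul, Complex.norm_real]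
      rw [Real.norm_of_nonneg (by positivity), inv_mul_le_iff₀ hMη]
      simpa using hPσ θ)
    (by
      intro θ
      have h1 : Commute (Polynomial.aeval A Q) A := by
        have := (Commute.all Q Polynomial.X).map (Polynomial.aeval A)
        simpa using this
      have h2 : Commute (Polynomial.aeval A Q) (Ring.inverse (σ θ • (1 : H →L[ℂ] H) - A)) :=
        inv_commute (hunit1 θ) (((Commute.one_right _).smul_right _).sub_right h1)
      exact (h2.smul_right _).symm.eq)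
    (by
      intro θ y
      set x := Ring.inverse (σ θ • (1 : H →L[ℂ] H) - A) y with hx
      have h1 : (σ θ • (1 : H →L[ℂ] H) - A) x = y :=
        congrArg (fun S : H →L[ℂ] H => S y) (Ring.mul_inverse_cancel _ (hunit1 θ))
      have h2 := hcoer θ 1 ⟨zero_le_one, le_rfl⟩ x
      rw [e1, h1] at h2
      have h3 : ⟪y, ((c * σ' θ) • Ring.inverse (σ θ • (1 : H →L[ℂ] H) - A)) y⟫_ℂ
          = (((g θ + g'' θ) / (2 * π) : ℝ) : ℂ) *
            conj (Complex.exp (-(θ * Complex.I)) * ⟪x, y⟫_ℂ) := by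
        rw [smul_apply, inner_smul_right, ← hx, map_mul, inner_conj_symm,
          ← Complex.exp_conj]
        simp only [hc, hσ', map_neg, map_mul, Complex.conj_ofReal, Complex.conj_I, mul_neg,
          neg_neg]
        push_cast
        field_simp
      rw [h3, Complex.re_ofReal_mul, Complex.conj_re]
      have := hcurv θ
      apply mul_nonneg (by positivity)
      exact le_trans (by positivity) h2)
    (by
      intro n
      have := cauchy_poly A σ σ' hσd hσ'c hper hunit1 c hone' (Q ^ n)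
      simpa only [Polynomial.eval_pow, map_pow] using this)
  rw [hQ, map_mul, Polynomial.aeval_C, Algebra.algebraMap_eq_smul_one, smul_mul_assoc, one_mul,
    norm_smul, Complex.norm_real, Real.norm_of_nonneg (by positivity), inv_mul_le_iff₀ hMη] at hT
  linarith

theorem crouzeix [Nontrivial H] (A : H →L[ℂ] H) (P : Polynomial ℂ) (M : ℝ)
    (hM : ∀ z ∈ W A, ‖P.eval z‖ ≤ M) : ‖Polynomial.aeval A P‖ ≤ 2 * M := by
  apply le_of_forall_pos_le_add
  intro η hη
  have := crouzeix_aux A P M hM (η / 2) (by positivity)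
  linarith

end Vale.Agent.P123
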